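import Vale.Agent.P181.RH.H348.Mat3
import Vale.Agent.P181.RH.H486.Low
import Vale.Agent.P181.RH.H694.Core
import Vale.Agent.P181.RH.H283.Par
import Vale.Agent.P181.RH.H237.Num
import Vale.Agent.P181.RG.H452.Half

set_option autoImplicit false

/-! P181, RH: [CORE] from the design alone -/

namespace Vale.Agent.P181.RH.H348

open Vale.Agent.P181 Vale.Agent.P181.RH

theorem lowRH_of (hDes : DesRH) : LowRH := H486.low matLG hDes

theorem coreRH_of (hDes : DesRH) : CoreRH :=
  H694.coreRH H283.par (lowRH_of hDes) H237.numRH RG.H452.half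

end Vale.Agent.P181.RH.H348
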