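import Vale.Agent.P181.RH.MatDefs
import Vale.Agent.P181.RG.H348.Mat3

set_option autoImplicit false

/-! P181, RH [MAT]: separation, columns of any lengths between `2` and `m` -/

namespace Vale.Agent.P181.RH.H348

open Finset MvPolynomial
open Vale.Agent.P181 Vale.Agent.P181.H280 Vale.Agent.P181.FR Vale.Agent.P181.H188W
open Vale.Agent.P181.T4 Vale.Agent.P181.H463 Vale.Agent.P181.H261
open Vale.Agent.P181.RG (Lt Own Same Thin)
open Vale.Agent.P181.RG.H348 (zz Pres toPerm toPerm_spec mrow single_cast det_unit_row det_pow_ne)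

variable {u m S R n : ℕ} {f : Fin m → ℕ}

/-- a column of length `l` with own letters and the free letters `g` -/
lemma mat_eqL {l : ℕ} (hl : l ≤ m) (hmn : m ≤ n) (y : Fin u → Fin n → ℂ)
    (L : Fin m → Lt u m f) (g : Fin m → Option (Fin u))
    (hg : ∀ r : Fin m, (r : ℕ) < l → (∀ i, g r = some i → L r = Sum.inl i) ∧
      (g r = none → Own r (L r)))
    (σ : Equiv.Perm (Lt u m f)) (h : Pres σ) :
    (Matrix.of fun r s : Fin l =>
      zz hmn y (σ (L (Fin.castLE hl r))) (Fin.castLE (hl.trans hmn) s)) =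
      mrow (hl.trans hmn) (fun r => g (Fin.castLE hl r)) (fun i => y (toPerm σ h i)) := by
  ext r s
  rw [Matrix.of_apply, mrow, Matrix.of_apply]
  have hg' := hg (Fin.castLE hl r) r.2
  rcases hgr : g (Fin.castLE hl r) with _ | i
  · obtain ⟨i, hi⟩ := hg'.2 hgr
    obtain ⟨j, hj⟩ := h ⟨Fin.castLE hl r, i⟩
    rw [hi, hj]
    simp only [zz]
    exact single_cast (hl.trans hmn) r s
  · rw [hg'.1 i hgr, toPerm_spec σ h i]
    rfl

/-- same class: minor zero -/
lemma det_sameL {l : ℕ} (hl : l ≤ m) (hmn : m ≤ n) (y : Fin u → Fin n → ℂ)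
    (L : Fin m → Lt u m f) {r r' : Fin m} (hr : (r : ℕ) < l) (hr' : (r' : ℕ) < l) (hrr : r ≠ r')
    (h : Same (L r) (L r')) :
    (Matrix.of fun r s : Fin l =>
      zz hmn y (L (Fin.castLE hl r)) (Fin.castLE (hl.trans hmn) s)).det = 0 := by
  obtain ⟨κ, ⟨i, hi⟩, ⟨j, hj⟩⟩ := h
  refine Matrix.det_zero_of_row_eq (i := (⟨r, hr⟩ : Fin l)) (j := ⟨r', hr'⟩) ?_ ?_
  · intro h'
    exact hrr (Fin.ext (Fin.mk.inj_iff.1 h'))
  · funext s
    have e1 : Fin.castLE hl ⟨r, hr⟩ = r := rfl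
    have e2 : Fin.castLE hl ⟨r', hr'⟩ = r' := rfl
    rw [Matrix.of_apply, Matrix.of_apply, e1, e2, hi, hj]
    rfl

lemma thin_restrict {l : ℕ} (hl : l ≤ m) {g : Fin m → Option (Fin u)} (h : Thin g) :
    Thin (fun r : Fin l => g (Fin.castLE hl r)) := by
  rcases h with h | ⟨i, j, hij, h⟩
  · left
    intro r r' hr hr'
    exact Fin.castLE_injective hl (h _ _ hr hr')
  · right
    exact ⟨i, j, hij, fun r => h (Fin.castLE hl r)⟩

/-- nonsingularity of thin columns at the special point -/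
lemma thin_neL (hm : 2 ≤ m) (hmn : m ≤ n) {g : Fin m → Option (Fin u)} (hg : Thin g)
    (y : Fin u → Fin n → ℂ) (h0 : ∀ i j, y i j ≠ 0)
    (h1 : ∀ i, y i ⟨0, by omega⟩ = 1)
    (h2 : ∀ i j, i ≠ j → y i ⟨1, by omega⟩ ≠ y j ⟨1, by omega⟩) :
    (mrow hmn g y).det ≠ 0 := by
  classical
  intro hdet
  obtain ⟨v, hv0, hv⟩ := Matrix.exists_mulVec_eq_zero_iff.2 hdet
  apply hv0
  have hnone : ∀ r, g r = none → v r = 0 := by
    intro r hr
    have h3 := congrFun hv r
    rw [Matrix.mulVec, dotProduct] at h3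
    simp only [mrow, Matrix.of_apply, hr, ite_mul, one_mul, zero_mul, Pi.zero_apply] at h3
    rw [Finset.sum_ite_eq, if_pos (mem_univ r)] at h3
    exact h3
  rcases hg with hg | ⟨i, j, hij, hg⟩
  · funext r
    rcases hgr : g r with _ | i
    · exact hnone r hgr
    · have h3 := congrFun hv r
      rw [Matrix.mulVec, dotProduct] at h3
      simp only [mrow, Matrix.of_apply, hgr, Pi.zero_apply] at h3
      rw [Finset.sum_eq_single r] at h3
      · exact (mul_eq_zero.1 h3).resolve_left (h0 _ _)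
      · intro s _ hs
        have : g s = none := by
          by_contra hc
          exact hs (hg s r hc (by rw [hgr]; exact Option.some_ne_none i))
        rw [hnone s this, mul_zero]
      · intro hc
        exact absurd (mem_univ r) hc
  · have r0 : g ⟨0, by omega⟩ = some i := by rw [hg]; simp
    have r1 : g ⟨1, by omega⟩ = some j := by rw [hg]; simp
    have hrest : ∀ r : Fin m, (r : ℕ) ≠ 0 → (r : ℕ) ≠ 1 → v r = 0 := by
      intro r hr0 hr1
      exact hnone r (by rw [hg, if_neg hr0, if_neg hr1])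
    have hrow : ∀ (r : Fin m) (l : Fin u), g r = some l →
        y l (Fin.castLE hmn ⟨0, by omega⟩) * v ⟨0, by omega⟩ +
          y l (Fin.castLE hmn ⟨1, by omega⟩) * v ⟨1, by omega⟩ = 0 := by
      intro r l hl
      have h3 := congrFun hv r
      rw [Matrix.mulVec, dotProduct] at h3
      simp only [mrow, Matrix.of_apply, hl, Pi.zero_apply] at h3
      rw [← h3]
      symm
      rw [Finset.sum_eq_add_of_mem ⟨0, by omega⟩ ⟨1, by omega⟩ (mem_univ _) (mem_univ _)
        (by intro h; have := congrArg Fin.val h; simp at this)]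
      intro s _ hs
      rw [hrest s (fun h => hs.1 (Fin.ext h)) (fun h => hs.2 (Fin.ext h)), mul_zero]
    have e0 := hrow _ _ r0
    have e1 := hrow _ _ r1
    have c0 : ∀ l, y l (Fin.castLE hmn ⟨0, by omega⟩) = 1 := h1
    have c1 : y i (Fin.castLE hmn ⟨1, by omega⟩) ≠ y j (Fin.castLE hmn ⟨1, by omega⟩) :=
      h2 i j hij
    rw [c0] at e0 e1
    have h4 : (y i (Fin.castLE hmn ⟨1, by omega⟩) - y j (Fin.castLE hmn ⟨1, by omega⟩)) *
        v ⟨1, by omega⟩ = 0 := by linear_combination e0 - e1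
    have h5 : v ⟨1, by omega⟩ = 0 := (mul_eq_zero.1 h4).resolve_left (sub_ne_zero.2 c1)
    rw [h5] at e0
    have h6 : v ⟨0, by omega⟩ = 0 := by linear_combination e0
    funext r
    by_cases hr0 : (r : ℕ) = 0
    · have : r = ⟨0, by omega⟩ := Fin.ext hr0
      rw [this, h6]
      rfl
    · by_cases hr1 : (r : ℕ) = 1
      · have : r = ⟨1, by omega⟩ := Fin.ext hr1
        rw [this, h5]
        rfl
      · exact hrest r hr0 hr1

/-- The column index. -/
abbrev CN (u S R : ℕ) : Type := (Fin u × Fin S) ⊕ Fin R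

/-- product of the minors of the columns `L` at the point `z` -/
noncomputable def cp (hmn : m ≤ n) (len : CN u S R → ℕ) (hlen : ∀ c, len c ≤ m)
    (L : CN u S R → Fin m → Lt u m f) (z : Lt u m f → Fin n → ℂ) : ℂ :=
  ∏ c, (Matrix.of fun r s : Fin (len c) =>
    z (L c (Fin.castLE (hlen c) r)) (Fin.castLE ((hlen c).trans hmn) s)).det

/-- a row index -/
def px (hn : 0 < n) (a : ℕ) : Fin n := if h : a < n then ⟨a, h⟩ else ⟨0, hn⟩

lemma cp_pres (hn : 0 < n) (hmn : m ≤ n) {lf : Fin S → ℕ} {lr : Fin R → ℕ}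
    (hlen : ∀ c : CN u S R, ln lf lr c ≤ m) {pos : ℕ → Fin S → ℕ}
    (hpos : ∀ l, l < u → ∀ s, pos l s < lf s) (τ : Equiv.Perm (Fin u))
    (L : CN u S R → Fin m → Lt u m f) (fr : Fin R → Fin m → Option (Fin u))
    (h1 : ∀ i (s : Fin S) (r : Fin m), (r : ℕ) < lf s → if (r : ℕ) = pos (τ i) s
      then L (Sum.inl (i, s)) r = Sum.inl i else Own r (L (Sum.inl (i, s)) r))
    (h2 : ∀ c (r : Fin m), (r : ℕ) < lr c → (∀ i, fr c r = some i → L (Sum.inr c) r = Sum.inl i) ∧
      (fr c r = none → Own r (L (Sum.inr c) r)))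
    (y : Fin u → Fin n → ℂ) (σ : Equiv.Perm (Lt u m f)) (hσ : Pres σ) :
    cp hmn (ln lf lr) hlen L (fun x => zz hmn y (σ x)) =
      (∏ i, ∏ s : Fin S, y (toPerm σ hσ i) (px hn (pos (τ i) s))) *
        ∏ c : Fin R, (mrow ((hlen (Sum.inr c)).trans hmn)
          (fun r => fr c (Fin.castLE (hlen (Sum.inr c)) r))
          (fun i => y (toPerm σ hσ i))).det := by
  classical
  rw [cp, Fintype.prod_sum_type, Fintype.prod_prod_type]
  congr 1
  · refine Finset.prod_congr rfl fun i _ => Finset.prod_congr rfl fun s _ => ?_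
    have hp : pos (τ i) s < lf s := hpos _ (τ i).2 s
    have hlm : lf s ≤ m := hlen (Sum.inl (i, s))
    rw [mat_eqL (hlen (Sum.inl (i, s))) hmn y (L (Sum.inl (i, s)))
      (fun r => if (r : ℕ) = pos (τ i) s then some i else none) ?_ σ hσ]
    · refine (det_unit_row (⟨pos (τ i) s, hp⟩ : Fin (ln lf lr (Sum.inl (i, s))))
        (fun s' => y (toPerm σ hσ i)
          (Fin.castLE ((hlen (Sum.inl (i, s))).trans hmn) s')) _ ?_ ?_).trans ?_
      · intro r s' hr
        have : (r : ℕ) ≠ pos (τ i) s := fun h => hr (Fin.ext h)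
        simp only [mrow, Matrix.of_apply, Fin.val_castLE, if_neg this]
      · intro s'
        simp only [mrow, Matrix.of_apply, Fin.val_castLE, if_true]
      · congr 1
        rw [px, dif_pos (lt_of_lt_of_le hp (hlm.trans hmn))]
        rfl
    · intro r hr
      have h3 := h1 i s r hr
      by_cases hr' : (r : ℕ) = pos (τ i) s
      · rw [if_pos hr'] at h3
        simp only [if_pos hr']
        exact ⟨fun j hj => by rw [h3, Option.some_injective _ hj], fun hj => by simp at hj⟩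
      · rw [if_neg hr'] at h3
        simp only [if_neg hr']
        exact ⟨fun j hj => by simp at hj, fun _ => h3⟩
  · refine Finset.prod_congr rfl fun c _ => ?_
    rw [mat_eqL (hlen (Sum.inr c)) hmn y (L (Sum.inr c)) (fr c) (h2 c) σ hσ]

/-- the polynomial of the rest columns -/
noncomputable def WP {lr : Fin R → ℕ} (hlr : ∀ c, lr c ≤ m) (hmn : m ≤ n)
    (fr : Fin R → Fin m → Option (Fin u)) : MvPolynomial (Fin n × Fin u) ℂ :=
  ∏ c : Fin R, (mrow ((hlr c).trans hmn) (fun r => fr c (Fin.castLE (hlr c) r))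
    (fun i j => (X (j, i) : MvPolynomial (Fin n × Fin u) ℂ))).det

lemma eval_WP {lr : Fin R → ℕ} (hlr : ∀ c, lr c ≤ m) (hmn : m ≤ n)
    (fr : Fin R → Fin m → Option (Fin u)) (x : Fin n × Fin u → ℂ) :
    eval x (WP hlr hmn fr) = ∏ c : Fin R, (mrow ((hlr c).trans hmn)
      (fun r => fr c (Fin.castLE (hlr c) r)) (fun i j => x (j, i))).det := by
  rw [WP, map_prod]
  refine Finset.prod_congr rfl fun c _ => ?_
  rw [RingHom.map_det]
  congr 1
  ext r s
  rw [RingHom.mapMatrix_apply, Matrix.map_apply, mrow, mrow, Matrix.of_apply, Matrix.of_apply]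
  rcases fr c (Fin.castLE (hlr c) r) with _ | i
  · simp only
    split_ifs
    · rw [map_one]
    · rw [map_zero]
  · simp only [eval_X]

/-- the polynomial of the form matrix -/
noncomputable def DA (hn : 0 < n) (u : ℕ) (pos : ℕ → Fin S → ℕ) :
    MvPolynomial (Fin n × Fin u) ℂ :=
  (Matrix.of fun τ ρ : Equiv.Perm (Fin u) => ∏ i, ∏ s : Fin S,
    (X (px hn (pos (τ i) s), ρ i) : MvPolynomial (Fin n × Fin u) ℂ)).det

lemma eval_DA (hn : 0 < n) (pos : ℕ → Fin S → ℕ) (x : Fin n × Fin u → ℂ) :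
    eval x (DA hn u pos) = (Matrix.of fun τ ρ : Equiv.Perm (Fin u) => ∏ i, ∏ s : Fin S,
      x (px hn (pos (τ i) s), ρ i)).det := by
  rw [DA, RingHom.map_det]
  congr 1
  ext τ ρ
  rw [RingHom.mapMatrix_apply, Matrix.map_apply, Matrix.of_apply, Matrix.of_apply, map_prod]
  refine Finset.prod_congr rfl fun i _ => ?_
  rw [map_prod]
  exact Finset.prod_congr rfl fun s _ => eval_X _

/-- the special point -/
noncomputable def y0 (n u : ℕ) (wt : ℕ → ℕ) (i : Fin u) (j : Fin n) : ℂ :=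
  (u.factorial : ℂ) ^ (wt j * (i : ℕ))

lemma y0_ne (n u : ℕ) (wt : ℕ → ℕ) (i : Fin u) (j : Fin n) : y0 n u wt i j ≠ 0 :=
  pow_ne_zero _ (by exact_mod_cast Nat.factorial_ne_zero u)

lemma WP_ne {lr : Fin R → ℕ} (hlr : ∀ c, lr c ≤ m) (hlr2 : ∀ c, 2 ≤ lr c) (hmn : m ≤ n)
    (fr : Fin R → Fin m → Option (Fin u)) (hfr : ∀ c, Thin (fr c)) : WP hlr hmn fr ≠ 0 := by
  intro h
  have h1 := eval_WP hlr hmn fr (fun ji => y0 n u (fun j => if j = 0 then 0 else 1) ji.2 ji.1)
  rw [h, map_zero] at h1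
  revert h1
  refine (Finset.prod_ne_zero_iff.2 fun c _ => ?_).symm
  refine thin_neL (hlr2 c) ((hlr c).trans hmn) (thin_restrict (hlr c) (hfr c)) _
    (fun i j => y0_ne n u _ i j) (fun i => ?_) (fun i j hij => ?_)
  · simp [y0]
  · simp only [y0]
    intro h2
    have hu : 2 ≤ u := by
      have hi := i.2
      have hj := j.2
      by_contra hc
      apply hij
      apply Fin.ext
      omega
    simp only [one_ne_zero, if_false, one_mul] at h2
    have h3 : (u.factorial : ℕ) ^ (i : ℕ) = u.factorial ^ (j : ℕ) := by exact_mod_cast h2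
    have h4 : 2 ≤ u.factorial := hu.trans (Nat.self_le_factorial u)
    exact hij (Fin.ext (Nat.pow_right_injective h4 h3))

lemma DA_ne (hn : 0 < n) {lf : Fin S → ℕ} (hlf : ∀ s, lf s ≤ n) {pos : ℕ → Fin S → ℕ}
    (hpos : ∀ l, l < u → ∀ s, pos l s < lf s) {wt : ℕ → ℕ}
    (hwt : ∀ l, l < u → ∑ s, wt (pos l s) = l) : DA hn u pos ≠ 0 := by
  intro h
  have h1 := eval_DA hn pos (fun ji : Fin n × Fin u => y0 n u wt ji.2 ji.1)
  rw [h, map_zero] at h1
  apply det_pow_ne (u := u)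
  rw [h1]
  congr 1
  ext τ ρ
  rw [Matrix.of_apply, Matrix.of_apply, ← Finset.prod_pow_eq_pow_sum]
  refine Finset.prod_congr rfl fun i _ => ?_
  have e : ∀ s, y0 n u wt (ρ i) (px hn (pos (τ i) s)) =
      (u.factorial : ℂ) ^ (wt (pos (τ i) s) * ((ρ i : Fin u) : ℕ)) := by
    intro s
    rw [y0, px, dif_pos (lt_of_lt_of_le (hpos _ (τ i).2 s) (hlf s))]
  simp only [e]
  rw [Finset.prod_pow_eq_pow_sum, ← Finset.sum_mul, hwt _ (τ i).2]

/-- **Separation.** -/
theorem sep (hm : 2 ≤ m) (hmn : m ≤ n) {lf : Fin S → ℕ} {lr : Fin R → ℕ}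
    (hlf : ∀ s, 2 ≤ lf s ∧ lf s ≤ m) (hlr : ∀ c, 2 ≤ lr c ∧ lr c ≤ m)
    (hlen : ∀ c : CN u S R, ln lf lr c ≤ m) {pos : ℕ → Fin S → ℕ}
    (hpos : ∀ l, l < u → ∀ s, pos l s < lf s) {wt : ℕ → ℕ}
    (hwt : ∀ l, l < u → ∑ s, wt (pos l s) = l)
    (fr : Fin R → Fin m → Option (Fin u))
    (K : Equiv.Perm (Fin u) → CN u S R → Fin m → Lt u m f)
    (hfr : ∀ c, Thin (fr c))
    (h1 : ∀ τ i (s : Fin S) (r : Fin m), (r : ℕ) < lf s → if (r : ℕ) = pos (τ i) s
      then K τ (Sum.inl (i, s)) r = Sum.inl i else Own r (K τ (Sum.inl (i, s)) r))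
    (h2 : ∀ τ c (r : Fin m), (r : ℕ) < lr c →
      (∀ i, fr c r = some i → K τ (Sum.inr c) r = Sum.inl i) ∧
      (fr c r = none → Own r (K τ (Sum.inr c) r)))
    (h3 : ∀ τ (σ : Equiv.Perm (Lt u m f)),
      (∀ c (r r' : Fin m), (r : ℕ) < ln lf lr c → (r' : ℕ) < ln lf lr c → r ≠ r' →
        ¬ Same (σ (K τ c r)) (σ (K τ c r'))) → Pres σ)
    (F : Fn u n) (hF : ∃ P, evalP u n P = F)
    (h0 : ∀ τ (y : Fin u → Fin n → ℂ), ∑ σ : Equiv.Perm (Lt u m f),
      cp hmn (ln lf lr) hlen (K τ) (fun x => zz hmn y (σ x)) *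
        F (fun i => zz hmn y (σ (Sum.inl i))) = 0) :
    F = 0 := by
  classical
  have hn : 0 < n := by omega
  obtain ⟨P, hP⟩ := hF
  let T : Equiv.Perm (Lt u m f) → Equiv.Perm (Fin u) := fun σ =>
    if h : Pres σ then toPerm σ h else 1
  let nn : Equiv.Perm (Fin u) → ℕ := fun ρ =>
    ((univ.filter fun σ : Equiv.Perm (Lt u m f) => Pres σ).filter fun σ => T σ = ρ).card
  have hid : Pres (1 : Equiv.Perm (Lt u m f)) := fun x => ⟨x.2, rfl⟩
  have hT1 : T 1 = 1 := by
    simp only [T]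
    rw [dif_pos hid]
    apply Equiv.ext
    intro i
    have := toPerm_spec (1 : Equiv.Perm (Lt u m f)) hid i
    exact (Sum.inl_injective this).symm
  have hn1 : (nn 1 : ℂ) ≠ 0 := by
    have : nn 1 ≠ 0 := by
      simp only [nn]
      rw [Finset.card_ne_zero]
      exact ⟨1, by simp [hid, hT1]⟩
    exact_mod_cast this
  -- the linear system
  have hsys : ∀ (τ : Equiv.Perm (Fin u)) (y : Fin u → Fin n → ℂ), ∑ ρ : Equiv.Perm (Fin u),
      (∏ i, ∏ s : Fin S, y (ρ i) (px hn (pos (τ i) s))) *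
        ((nn ρ : ℂ) * ((∏ c : Fin R, (mrow ((hlen (Sum.inr c)).trans hmn)
          (fun r => fr c (Fin.castLE (hlen (Sum.inr c)) r)) (fun i => y (ρ i))).det) *
          F (fun i => y (ρ i)))) = 0 := by
    intro τ y
    rw [← h0 τ y]
    have e1 : ∑ σ : Equiv.Perm (Lt u m f),
        cp hmn (ln lf lr) hlen (K τ) (fun x => zz hmn y (σ x)) *
        F (fun i => zz hmn y (σ (Sum.inl i))) =
        ∑ σ ∈ univ.filter fun σ : Equiv.Perm (Lt u m f) => Pres σ,
          cp hmn (ln lf lr) hlen (K τ) (fun x => zz hmn y (σ x)) *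
            F (fun i => zz hmn y (σ (Sum.inl i))) := by
      symm
      refine Finset.sum_subset (Finset.filter_subset _ _) fun σ _ hσ => ?_
      rw [Finset.mem_filter, not_and] at hσ
      have hσ' := hσ (mem_univ σ)
      have : ∃ c, ∃ r r' : Fin m, (r : ℕ) < ln lf lr c ∧ (r' : ℕ) < ln lf lr c ∧ r ≠ r' ∧
          Same (σ (K τ c r)) (σ (K τ c r')) := by
        by_contra hc
        push Not at hc
        exact hσ' (h3 τ σ hc)
      obtain ⟨c, r, r', hr, hr', hrr, hs⟩ := this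
      have hz : cp hmn (ln lf lr) hlen (K τ) (fun x => zz hmn y (σ x)) = 0 := by
        rw [cp]
        exact Finset.prod_eq_zero (mem_univ c)
          (det_sameL (hlen c) hmn y (fun r => σ (K τ c r)) hr hr' hrr hs)
      rw [hz, zero_mul]
    have e2 : ∀ σ ∈ univ.filter fun σ : Equiv.Perm (Lt u m f) => Pres σ,
        cp hmn (ln lf lr) hlen (K τ) (fun x => zz hmn y (σ x)) *
          F (fun i => zz hmn y (σ (Sum.inl i))) =
        (fun ρ : Equiv.Perm (Fin u) => (∏ i, ∏ s : Fin S, y (ρ i) (px hn (pos (τ i) s))) *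
          ((∏ c : Fin R, (mrow ((hlen (Sum.inr c)).trans hmn)
            (fun r => fr c (Fin.castLE (hlen (Sum.inr c)) r)) (fun i => y (ρ i))).det) *
            F (fun i => y (ρ i)))) (T σ) := by
      intro σ hσ
      have hσ' : Pres σ := (Finset.mem_filter.1 hσ).2
      have hTσ : T σ = toPerm σ hσ' := dif_pos hσ'
      rw [cp_pres hn hmn hlen hpos τ (K τ) fr (h1 τ) (h2 τ) y σ hσ', hTσ]
      have e3 : (fun i => zz hmn y (σ (Sum.inl i))) = fun i => y (toPerm σ hσ' i) := by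
        funext i
        rw [toPerm_spec σ hσ' i]
        rfl
      rw [e3]
      ring
    rw [e1, Finset.sum_congr rfl e2, ← Finset.sum_fiberwise _ T]
    refine Finset.sum_congr rfl fun ρ _ => ?_
    rw [Finset.sum_congr rfl (g := fun _ =>
      (∏ i, ∏ s : Fin S, y (ρ i) (px hn (pos (τ i) s))) *
        ((∏ c : Fin R, (mrow ((hlen (Sum.inr c)).trans hmn)
          (fun r => fr c (Fin.castLE (hlen (Sum.inr c)) r)) (fun i => y (ρ i))).det) *
          F (fun i => y (ρ i))))]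
    · rw [Finset.sum_const, nsmul_eq_mul]
      ring
    · intro σ hσ
      rw [(Finset.mem_filter.1 hσ).2]
  have hPz : DA hn u pos * (WP (fun c => (hlr c).2) hmn fr * P) = 0 := by
    apply MvPolynomial.funext
    intro x
    have hy := fun τ => hsys τ (fun i j => x (j, i))
    have hmul : (Matrix.of fun τ ρ : Equiv.Perm (Fin u) => ∏ i, ∏ s : Fin S,
        x (px hn (pos (τ i) s), ρ i)).mulVec (fun ρ : Equiv.Perm (Fin u) =>
          (nn ρ : ℂ) * ((∏ c : Fin R, (mrow ((hlen (Sum.inr c)).trans hmn)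
            (fun r => fr c (Fin.castLE (hlen (Sum.inr c)) r)) (fun i j => x (j, ρ i))).det) *
            F (fun i j => x (j, ρ i)))) = 0 := by
      funext τ
      exact hy τ
    have h5 := congrArg (fun v => Matrix.mulVec
      (Matrix.of fun τ ρ : Equiv.Perm (Fin u) => ∏ i, ∏ s : Fin S,
        x (px hn (pos (τ i) s), ρ i)).adjugate v) hmul
    simp only [Matrix.mulVec_mulVec, Matrix.adjugate_mul, Matrix.mulVec_zero,
      Matrix.smul_mulVec, Matrix.one_mulVec] at h5
    have h6 := congrFun h5 1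
    rw [Pi.smul_apply, smul_eq_mul, Pi.zero_apply] at h6
    simp only [Equiv.Perm.coe_one, id_eq] at h6
    rw [map_mul, map_mul, map_zero, eval_DA, eval_WP]
    have h7 : eval x P = F (fun i j => x (j, i)) := by
      rw [← hP, evalP_apply]
    rw [h7]
    rcases mul_eq_zero.1 h6 with h8 | h8
    · rw [h8, zero_mul]
    · rcases mul_eq_zero.1 h8 with h9 | h9
      · exact absurd h9 hn1
      · have h10 : (∏ c : Fin R, (mrow (((hlr c).2).trans hmn)
          (fun r => fr c (Fin.castLE (hlr c).2 r)) (fun i j => x (j, i))).det) *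
            F (fun i j => x (j, i)) = 0 := h9
        rw [h10, mul_zero]
  rcases mul_eq_zero.1 hPz with h | h
  · exact absurd h (DA_ne hn (fun s => (hlf s).2.trans hmn) hpos hwt)
  · rcases mul_eq_zero.1 h with h | h
    · exact absurd h (WP_ne _ (fun c => (hlr c).1) hmn fr hfr)
    · rw [← hP, h]
      exact map_zero (evalP u n)

end Vale.Agent.P181.RH.H348
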