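import Vale.Agent.P181.RH.H348.Mat2

set_option autoImplicit false

/-! P181, RH [MAT]: the orbit inequality, columns of any lengths between `2` and `m` -/

namespace Vale.Agent.P181.RH.H348

open Finset MvPolynomial
open Vale.Agent.P181 Vale.Agent.P181.H280 Vale.Agent.P181.FR Vale.Agent.P181.H188W
open Vale.Agent.P181.T4 Vale.Agent.P181.H463 Vale.Agent.P181.H261
open Vale.Agent.P181.RG (Lt Own Same Thin)
open Vale.Agent.P181.RG.H348 (zz Pres toPerm toPerm_spec mrow single_cast det_unit_row det_pow_ne
  MP_combine HWF_combine)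

/-- the rows of a column of length `l ≤ m` inside `Fin m` -/
lemma card_castLE {l m : ℕ} (hl : l ≤ m) (p : Fin m → Prop) [DecidablePred p] :
    (univ.filter fun r : Fin l => p (Fin.castLE hl r)).card =
      (univ.filter fun r : Fin m => (r : ℕ) < l ∧ p r).card := by
  refine Finset.card_bij (fun r _ => Fin.castLE hl r) ?_ ?_ ?_
  · intro r hr
    rw [mem_filter] at hr ⊢
    exact ⟨mem_univ _, r.2, hr.2⟩
  · intro r _ r' _ h
    exact Fin.castLE_injective hl h
  · intro r hr
    rw [mem_filter] at hr
    refine ⟨⟨r, hr.2.1⟩, ?_, rfl⟩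
    rw [mem_filter]
    exact ⟨mem_univ _, hr.2.2⟩

/-- **[MAT]**, general lengths -/
theorem matLG : MatLG := by
  classical
  intro n k b u m S R f lf lr pos wt lam η d hm hmn hlf hlr hpos _ _ hwt hb hη hd hs hdk hD hlam
  obtain ⟨fr, K, hfr, h1, h2, he, hk, h3⟩ := hD
  have hln : ∀ c : CN u S R, ln lf lr c ≤ m := by
    rintro (c | c)
    · exact (hlf c.2).2
    · exact (hlr c).2
  have hlnn : ∀ c : CN u S R, ln lf lr c ≤ n := fun c => (hln c).trans hmn
  have hcard : Fintype.card (Lt u m f) = b := by
    rw [Fintype.card_sum, Fintype.card_sigma, Fintype.card_fin]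
    simp only [Fintype.card_fin]
    exact hb
  obtain ⟨E⟩ : Nonempty (Lt u m f ≃ Fin b) := ⟨Fintype.equivFinOfCardEq hcard⟩
  refine gt_le_of_family η hη d hd hs ?_
  intro C ι _ _ len hlen hcol J hJ hli
  have hfinC : Fintype.card (Equiv.Perm (Fin u)) = u.factorial := by
    rw [Fintype.card_perm, Fintype.card_fin]
  rw [← hfinC]
  have hE : ∀ (l : ℕ) (g : Fin l → Lt u m f) (x : Lt u m f),
      (univ.filter fun r => E (g r) = E x).card = (univ.filter fun r => g r = x).card := by
    intro l g x
    congr 1
    ext r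
    simp only [mem_filter, mem_univ, true_and, EmbeddingLike.apply_eq_iff_eq]
  refine orbit_le (b := b) (a := k) (m := n) (lam := lam)
    (fun τ : Equiv.Perm (Fin u) => ∏ c : CN u S R, dt (hlnn c)
      (fun r => E (K τ c (Fin.castLE (hln c) r))))
    (fun β : ι => ∏ c, dt (hlen c) (fun s => E (Sum.inl (J β c s)))) ?_ ?_ ?_ ?_
  · intro τ β
    refine MP_combine (fun c : CN u S R => ln lf lr c) hlnn len hlen
      (fun c r => E (K τ c (Fin.castLE (hln c) r))) (fun c s => E (Sum.inl (J β c s))) ?_
    intro j
    obtain ⟨x, rfl⟩ := E.surjective j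
    have e1 : ∑ c : CN u S R, (univ.filter fun r : Fin (ln lf lr c) =>
        E (K τ c (Fin.castLE (hln c) r)) = E x).card =
        ∑ c : CN u S R, (univ.filter fun r : Fin m => (r : ℕ) < ln lf lr c ∧ K τ c r = x).card :=
      Finset.sum_congr rfl fun c _ =>
        (hE _ (fun r => K τ c (Fin.castLE (hln c) r)) x).trans
          (card_castLE (hln c) (fun r => K τ c r = x))
    have e2 : ∑ c : C, (univ.filter fun s : Fin (len c) => E (Sum.inl (J β c s)) = E x).card =
        ∑ c : C, (univ.filter fun s : Fin (len c) => (Sum.inl (J β c s) : Lt u m f) = x).card :=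
      Finset.sum_congr rfl fun c _ => hE (len c) (fun s => Sum.inl (J β c s)) x
    refine (congrArg₂ (· + ·) e1 e2).trans ?_
    rcases x with i | x
    · rw [he τ i]
      have e3 : ∑ c : C, (univ.filter fun s : Fin (len c) =>
          (Sum.inl (J β c s) : Lt u m f) = Sum.inl i).card = d i := by
        rw [← hJ β i]
        refine Finset.sum_congr rfl fun c _ => ?_
        congr 1
        ext s
        simp only [mem_filter, mem_univ, true_and, Sum.inl.injEq]
      rw [e3]
      exact Nat.sub_add_cancel (hdk i)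
    · rw [hk τ x]
      have e3 : ∑ c : C, (univ.filter fun s : Fin (len c) =>
          (Sum.inl (J β c s) : Lt u m f) = Sum.inr x).card = 0 := by
        refine Finset.sum_eq_zero fun c _ => ?_
        rw [Finset.card_eq_zero, Finset.filter_eq_empty_iff]
        intro s _ h
        exact Sum.inl_ne_inr h
      rw [e3, add_zero]
  · intro τ β
    refine HWF_combine (fun c : CN u S R => ln lf lr c) hlnn len hlen
      (fun c r => E (K τ c (Fin.castLE (hln c) r))) (fun c s => E (Sum.inl (J β c s))) lam ?_
    intro i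
    rw [← hlam i, hcol i]
    congr 1
    rw [Finset.card_filter, Fintype.sum_sum_type, Fintype.sum_prod_type]
    have e1 : ∀ x : Fin u, (∑ y : Fin S,
        if (i : ℕ) < ln lf lr (Sum.inl (x, y) : CN u S R) then 1 else 0) =
          (univ.filter fun s => (i : ℕ) < lf s).card := fun x => (Finset.card_filter _ _).symm
    have e2 : (∑ c : Fin R, if (i : ℕ) < ln lf lr (Sum.inr c : CN u S R) then 1 else 0) =
        (univ.filter fun c => (i : ℕ) < lr c).card := (Finset.card_filter _ _).symm
    rw [e2, Finset.sum_congr rfl fun x _ => e1 x, Finset.sum_const, Finset.card_univ,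
      Fintype.card_fin, smul_eq_mul]
  · have hsurj : Function.Surjective
        (fun (z : Fin b → Fin n → ℂ) (i : Fin u) => z (E (Sum.inl i))) := by
      intro y
      refine ⟨fun j => match E.symm j with
        | Sum.inl i => y i
        | Sum.inr _ => 0, ?_⟩
      funext i
      simp only [Equiv.symm_apply_apply]
    have h4 := hli.map' (LinearMap.funLeft ℂ ℂ
      (fun (z : Fin b → Fin n → ℂ) (i : Fin u) => z (E (Sum.inl i))))
      (LinearMap.ker_eq_bot.2 (LinearMap.funLeft_injective_of_surjective ℂ ℂ _ hsurj))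
    have hfun : (fun β : ι => (∏ c, dt (hlen c) (fun s => E (Sum.inl (J β c s))) : Fn b n)) =
        (LinearMap.funLeft ℂ ℂ (fun (z : Fin b → Fin n → ℂ) (i : Fin u) => z (E (Sum.inl i)))) ∘
          (fun (β : ι) (z : Fin u → Fin n → ℂ) => (∏ c, dt (hlen c) (J β c)) z) := by
      funext β z
      rw [Finset.prod_apply, Function.comp_apply, LinearMap.funLeft_apply, Finset.prod_apply]
      rfl
    rw [hfun]
    exact h4
  · intro F hF hz
    obtain ⟨pull, hpull⟩ : ∃ pull : Fn u n →ₗ[ℂ] Fn b n, pull = LinearMap.funLeft ℂ ℂ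
      (fun (z : Fin b → Fin n → ℂ) (i : Fin u) => z (E (Sum.inl i))) := ⟨_, rfl⟩
    have hrange : (fun β : ι => (∏ c, dt (hlen c) (fun s => E (Sum.inl (J β c s))) : Fn b n)) =
        pull ∘ (fun β : ι => (∏ c, dt (hlen c) (J β c) : Fn u n)) := by
      funext β z
      rw [hpull, Function.comp_apply, LinearMap.funLeft_apply, Finset.prod_apply,
        Finset.prod_apply]
      rfl
    rw [hrange, Set.range_comp, ← Submodule.map_span] at hF
    obtain ⟨F0, hF0, rfl⟩ := Submodule.mem_map.1 hF
    have hF00 : F0 = 0 := by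
      refine sep hm hmn hlf hlr hln hpos hwt fr K hfr h1 h2 h3 F0
        (exists_evalP_of_span _ (fun β => exists_evalP_prod len hlen (J β)) F0 hF0) ?_
      intro τ y
      have h5 := congrFun (hz τ) (fun j => zz hmn y (E.symm j))
      rw [symF_apply, Pi.zero_apply] at h5
      rw [← h5, ← Equiv.sum_comp E.permCongr]
      refine Finset.sum_congr rfl fun σ _ => ?_
      rw [Pi.mul_apply]
      congr 1
      · rw [cp, Finset.prod_apply]
        refine Finset.prod_congr rfl fun c _ => ?_
        rw [dt]
        congr 1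
        ext r s
        rw [Matrix.of_apply, Matrix.of_apply, Equiv.permCongr_apply, Equiv.symm_apply_apply,
          Equiv.symm_apply_apply]
      · rw [hpull, LinearMap.funLeft_apply]
        congr 1
        funext i
        change _ = zz hmn y (E.symm ((E.permCongr σ) (E (Sum.inl i))))
        rw [Equiv.permCongr_apply, Equiv.symm_apply_apply, Equiv.symm_apply_apply]
    rw [hF00, map_zero]

end Vale.Agent.P181.RH.H348
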